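import Vale.Agent.N336.Log

/-!
The language has correlation `2 ^ (-Ω(n log k / k))` with all CNFs of width `k` on a subcube.
-/

namespace Vale.Agent.N336T

open Finset Vale.Agent.N336 Vale.Agent.N336.Blocks

/-- Signed form of the width reduction. -/
theorem corr_le {m b : ℕ} {p : (Fin b → Bool) → Bool} (hp : Flips p) {k k' : ℕ} (hk' : 1 ≤ k')
    (hk : 0 < k) (hb : 180 * k ≤ b * k') (χ : (Fin m → Bool) → ℝ)
    (hB : ∀ F : Finset (Clause (Fin m)), (∀ D ∈ F, D.card ≤ k') →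
      |∑ z ∈ sols F, χ z| ≤ (2 : ℝ) ^ (9 * (m : ℝ) / 10))
    (F : Finset (Clause (Fin m × Fin b))) (hF : ∀ D ∈ F, D.card ≤ k) :
    |∑ x ∈ sols F, χ (par p x)| ≤ 2 ^ (m * b) / (2 : ℝ) ^ ((m : ℝ) / 20) := by
  have hk0 : (0 : ℝ) < k := by exact_mod_cast hk
  have h1 := blocks_sols hp hk' χ hB F hF (δ := k' / (3 * k)) (by positivity) (one_add_pow_le hk)
  set w : ℝ := b * (k' / (3 * k)) with hw
  have h2 : 60 ≤ w := by
    rw [hw, ← mul_div_assoc, le_div_iff₀ (by positivity)]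
    have : ((180 * k : ℕ) : ℝ) ≤ (b * k' : ℕ) := by exact_mod_cast hb
    push_cast at this
    linarith
  have h3 : 1 + b * ((k' : ℝ) / (3 * k) / 2) ≤ w * (31 / 60) := by
    have : b * ((k' : ℝ) / (3 * k) / 2) = w / 2 := by rw [hw]; ring
    rw [this]
    linarith
  have h4 : (31 / 60 : ℝ) ≤ (2 : ℝ) ^ (-(19 / 20) : ℝ) := by
    rw [← pow_le_pow_iff_left₀ (n := 20) (by norm_num) (by positivity) (by norm_num),
      ← Real.rpow_natCast ((2 : ℝ) ^ (-(19 / 20) : ℝ)), ← Real.rpow_mul (by norm_num)]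
    norm_num
  have h5 : (1 + b * ((k' : ℝ) / (3 * k) / 2)) ^ m ≤ w ^ m * (2 : ℝ) ^ (-(19 / 20) * m : ℝ) := by
    rw [Real.rpow_mul (by norm_num), Real.rpow_natCast, ← mul_pow]
    exact pow_le_pow_left₀ (by positivity) (h3.trans (by gcongr)) m
  have h6 : (0 : ℝ) < w ^ m := by positivity
  have h7 : w ^ m * |∑ x ∈ sols F, χ (par p x)| ≤
      w ^ m * (2 ^ (m * b) / (2 : ℝ) ^ ((m : ℝ) / 20)) := by
    refine h1.trans (le_trans (mul_le_mul_of_nonneg_left h5 (by positivity)) (le_of_eq ?_))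
    have : (2 : ℝ) ^ (9 * (m : ℝ) / 10) * (2 : ℝ) ^ (-(19 / 20) * m : ℝ)
        = ((2 : ℝ) ^ ((m : ℝ) / 20))⁻¹ := by
      rw [← Real.rpow_add (by norm_num), ← Real.rpow_neg (by norm_num)]
      congr 1
      ring
    rw [div_eq_mul_inv ((2 : ℝ) ^ (m * b)), ← this]
    ring
  exact le_of_mul_le_mul_left h7 h6

/-- The input of the language as a point of a subcube. -/
theorem exists_embedding {n m b : ℕ} (s t : ℕ) (a : ℕ → ℕ) (hn : 3 * s + m * t * t + m * b ≤ n) :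
    ∃ (e : Fin m × Fin b ↪ Fin n) (c : Fin n → Bool), ∀ x : Fin m × Fin b → Bool,
      Function.extend e x c = fun i : Fin n => Lang.inp s m b t a x i := by
  let e : Fin m × Fin b ↪ Fin n :=
    ⟨fun v => ⟨3 * s + m * t * t + finProdFinEquiv v, by
      have := (finProdFinEquiv v).2
      omega⟩, fun v w h => by
      have h2 := congrArg Fin.val h
      simp only at h2
      exact finProdFinEquiv.injective (Fin.ext (by omega))⟩
  have he : ∀ v, (e v : ℕ) = 3 * s + m * t * t + finProdFinEquiv v := fun v => rfl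
  refine ⟨e, fun i => Lang.cst s m b t a i, fun x => funext fun i => ?_⟩
  by_cases hi : ∃ v, e v = i
  · obtain ⟨v, rfl⟩ := hi
    have := (finProdFinEquiv v).2
    rw [e.injective.extend_apply, Lang.inp, dif_pos ⟨by rw [he]; omega, by rw [he]; omega⟩]
    congr 1
    rw [Equiv.eq_symm_apply]
    ext
    simp only [he]
    omega
  · rw [Function.extend_apply' _ _ _ hi, Lang.inp, dif_neg]
    rintro ⟨h1, h2⟩
    refine hi ⟨finProdFinEquiv.symm ⟨i - (3 * s + m * t * t), h2⟩, Fin.ext ?_⟩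
    rw [he, Equiv.apply_symm_apply]
    simp only
    omega

/-- The choice of parameters for width `k`. -/
theorem params_width {n k l : ℕ} (h1 : 2 ^ 300 ≤ k) (hl : Nat.log 2 n + 3 = l)
    (h2 : l ^ 3 ≤ 8 * k) (h3 : 2000000 * k ≤ n) :
    ∃ k' m b r : ℕ, 1 ≤ k' ∧ 4000 * k' ≤ m ∧ 1 ≤ r ∧ 2 * m + 2 ≤ 2 ^ l ∧
      6 * l * k' * 2 ^ (40 * k') ≤ r ∧ r ^ 6 ≤ 2 ^ m ∧ 180 * k ≤ b * k' ∧
      3 * n.size + m * (2 * r) * (2 * r) + m * b ≤ n ∧ n ≤ 2 * (m * b) ∧
      n * Nat.log 2 k ≤ 360000 * (k * m) := by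
  have hk0 : 0 < k := lt_of_lt_of_le (Nat.two_pow_pos _) h1
  obtain ⟨κ, hκ⟩ : ∃ κ, Nat.log 2 k = κ := ⟨_, rfl⟩
  have g1 : 300 ≤ κ := hκ ▸ Nat.le_log_of_pow_le (by norm_num) h1
  have g2 : 2 ^ κ ≤ k := hκ ▸ Nat.pow_log_le_self 2 hk0.ne'
  have g3 : k < 2 ^ (κ + 1) := hκ ▸ Nat.lt_pow_succ_log_self (by norm_num) _
  obtain ⟨k', hk'⟩ : ∃ k', κ / 300 = k' := ⟨_, rfl⟩
  have g4 : 1 ≤ k' := by omega
  have g5 : 300 * k' ≤ κ := by omega
  have g6 : κ < 600 * k' := by omega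
  have g7 : κ ≤ k := (Nat.lt_two_pow_self).le.trans g2
  obtain ⟨m, hm⟩ : ∃ m, n * k' / (300 * k) = m := ⟨_, rfl⟩
  have m1 : 300 * k * m ≤ n * k' := hm ▸ Nat.mul_div_le _ _
  have m2 : n * k' < 300 * k * (m + 1) := hm ▸ Nat.lt_mul_div_succ _ (by omega)
  have m3 : 4000 * k' ≤ m := by
    rw [← hm, Nat.le_div_iff_mul_le (by omega)]
    calc 4000 * k' * (300 * k) = 1200000 * k * k' := by ring
      _ ≤ n * k' := Nat.mul_le_mul_right _ (by omega)
  have m4 : 300 * m ≤ n := by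
    refine Nat.le_of_mul_le_mul_left (c := k') ?_ g4
    calc k' * (300 * m) = 300 * k' * m := by ring
      _ ≤ 300 * k * m := Nat.mul_le_mul_right _ (by omega)
      _ ≤ n * k' := m1
      _ = k' * n := mul_comm _ _
  obtain ⟨d, hd⟩ : ∃ d, 180 * k / k' = d := ⟨_, rfl⟩
  have d1 : k' * d ≤ 180 * k := hd ▸ Nat.mul_div_le _ _
  have d2 : 180 * k < k' * (d + 1) := hd ▸ Nat.lt_mul_div_succ _ g4
  have d3 : d ≤ 180 * k := hd ▸ Nat.div_le_self _ _
  obtain ⟨r, hr⟩ : ∃ r, 6 * l * k' * 2 ^ (40 * k') = r := ⟨_, rfl⟩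
  have hl3 : 3 ≤ l := by omega
  have r1 : 1 ≤ r := by
    rw [← hr]
    exact Nat.pos_of_ne_zero (by positivity)
  have r2 : 2 * r * (2 * r) * k' ≤ k := by
    refine (Nat.pow_le_pow_iff_left (n := 3) (by norm_num)).1 ?_
    have e1 : k' ^ 9 ≤ 2 ^ (9 * k') := by
      rw [mul_comm, pow_mul]
      exact Nat.pow_le_pow_left (Nat.lt_two_pow_self).le 9
    have e2 : (l ^ 3) ^ 2 ≤ (8 * k) ^ 2 := Nat.pow_le_pow_left h2 2
    have e3 : 2 ^ 28 * (2 ^ (9 * k') * 2 ^ (240 * k')) ≤ k := by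
      rw [← pow_add, ← pow_add]
      exact (Nat.pow_le_pow_right (by norm_num) (by omega)).trans g2
    have e4 : (2 ^ (40 * k')) ^ 6 = 2 ^ (240 * k') := by
      rw [← pow_mul]
      congr 1
      ring
    calc (2 * r * (2 * r) * k') ^ 3
        = 144 ^ 3 * (l ^ 3) ^ 2 * (k' ^ 9 * (2 ^ (40 * k')) ^ 6) := by rw [← hr]; ring
      _ ≤ 144 ^ 3 * (8 * k) ^ 2 * (2 ^ (9 * k') * 2 ^ (240 * k')) := by
          rw [e4]
          exact Nat.mul_le_mul (Nat.mul_le_mul_left _ e2) (Nat.mul_le_mul_right _ e1)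
      _ = 144 ^ 3 * 64 * (2 ^ (9 * k') * 2 ^ (240 * k')) * k ^ 2 := by ring
      _ ≤ 2 ^ 28 * (2 ^ (9 * k') * 2 ^ (240 * k')) * k ^ 2 :=
          Nat.mul_le_mul_right _ (Nat.mul_le_mul_right _ (by norm_num))
      _ ≤ k * k ^ 2 := Nat.mul_le_mul_right _ e3
      _ = k ^ 3 := by ring
  have r3 : r ≤ k := by
    calc r = r * 1 * 1 := by ring
      _ ≤ 2 * r * (2 * r) * k' := Nat.mul_le_mul (Nat.mul_le_mul (by omega) (by omega)) g4
      _ ≤ k := r2
  have n1 : n < 2 ^ (Nat.log 2 n + 1) := Nat.lt_pow_succ_log_self (by norm_num) _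
  have n2 : n.size ≤ l := (Nat.size_le.2 n1).trans (by omega)
  have n3 : l ≤ l ^ 3 := Nat.le_self_pow (by norm_num) _
  have a1 : 300 * (m * (2 * r) * (2 * r)) ≤ n := by
    refine Nat.le_of_mul_le_mul_left (c := k') ?_ g4
    calc k' * (300 * (m * (2 * r) * (2 * r))) = 300 * (2 * r * (2 * r) * k') * m := by ring
      _ ≤ 300 * k * m := Nat.mul_le_mul_right _ (Nat.mul_le_mul_left _ r2)
      _ ≤ n * k' := m1
      _ = k' * n := mul_comm _ _
  have a2 : 5 * (m * d) ≤ 3 * n := by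
    refine Nat.le_of_mul_le_mul_left (c := k') ?_ g4
    calc k' * (5 * (m * d)) = 5 * m * (k' * d) := by ring
      _ ≤ 5 * m * (180 * k) := Nat.mul_le_mul_left _ d1
      _ = 3 * (300 * k * m) := by ring
      _ ≤ 3 * (n * k') := Nat.mul_le_mul_left _ m1
      _ = k' * (3 * n) := by ring
  have a3 : 3 * n ≤ 5 * ((m + 1) * (d + 1)) := by
    refine Nat.le_of_mul_le_mul_left (c := k') ?_ g4
    calc k' * (3 * n) = 3 * (n * k') := by ring
      _ ≤ 3 * (300 * k * (m + 1)) := Nat.mul_le_mul_left _ m2.le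
      _ = 5 * (m + 1) * (180 * k) := by ring
      _ ≤ 5 * (m + 1) * (k' * (d + 1)) := Nat.mul_le_mul_left _ d2.le
      _ = k' * (5 * ((m + 1) * (d + 1))) := by ring
  refine ⟨k', m, d + 1, r, g4, m3, r1, ?_, hr.le, ?_, ?_, ?_, ?_, ?_⟩
  · rw [← hl, show Nat.log 2 n + 3 = Nat.log 2 n + 1 + 2 by ring, pow_add]
    omega
  · calc r ^ 6 ≤ (2 ^ (κ + 1)) ^ 6 := Nat.pow_le_pow_left (by omega) 6
      _ = 2 ^ ((κ + 1) * 6) := (pow_mul _ _ _).symm
      _ ≤ 2 ^ m := Nat.pow_le_pow_right (by norm_num) (by omega)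
  · rw [mul_comm (d + 1)]
    exact d2.le
  · rw [mul_add, mul_one]
    omega
  · rw [add_mul, one_mul] at a3
    omega
  · rw [hκ]
    calc n * κ ≤ n * (600 * k') := Nat.mul_le_mul_left _ g6.le
      _ = 600 * (n * k') := by ring
      _ ≤ 600 * (300 * k * (m + 1)) := Nat.mul_le_mul_left _ m2.le
      _ ≤ 600 * (300 * k * (2 * m)) :=
          Nat.mul_le_mul_left _ (Nat.mul_le_mul_left _ (by omega))
      _ = 360000 * (k * m) := by ring

/-- **Correlation bound.** On a subcube of dimension at least `n / 2` the language has correlation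
at most `2 ^ (-n log k / (15000000 k)) / 8` with every CNF of width `k`. -/
theorem core {n k : ℕ} (hn : (2 : ℝ) ^ 100 ≤ Real.log n) (h1 : Real.log n ^ 3 ≤ k)
    (h3 : 2000000 * k ≤ n) :
    2 ≤ k ∧ ∃ (m b : ℕ) (_ : Fin m × Fin b) (e : Fin m × Fin b ↪ Fin n) (a : Fin n → Bool),
      n ≤ 2 * (m * b) ∧ ∀ F : Finset (Clause (Fin m × Fin b)), (∀ D ∈ F, D.card ≤ k) →
        |∑ x ∈ sols F, sgn (lang (List.ofFn (Function.extend e x a)))| ≤
          (2 : ℝ) ^ (-(n * Real.log k / (15000000 * k))) / 8 * 2 ^ (m * b) := by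
  have hk1 : 2 ^ 300 ≤ k := by
    have : ((2 : ℝ) ^ 100) ^ 3 ≤ Real.log n ^ 3 := by gcongr
    rw [← pow_mul] at this
    exact_mod_cast this.trans h1
  have hk0 : 0 < k := lt_of_lt_of_le (Nat.two_pow_pos _) hk1
  have hn0 : n ≠ 0 := by omega
  have hlo := Real.log_two_gt_d9
  have hhi := Real.log_two_lt_d9
  have hl : (Nat.log 2 n + 3) ^ 3 ≤ 8 * k := by
    have e1 : (2 : ℝ) ^ Nat.log 2 n ≤ n := by exact_mod_cast Nat.pow_log_le_self 2 hn0
    have e2 := Real.log_le_log (by positivity) e1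
    rw [Real.log_pow] at e2
    have e3 : (100 : ℝ) ≤ 2 ^ 100 := by norm_num
    have e0 : (0 : ℝ) ≤ Nat.log 2 n := Nat.cast_nonneg _
    have e4 : ((Nat.log 2 n : ℝ) + 3) ≤ 2 * Real.log n := by nlinarith
    have e5 : ((Nat.log 2 n : ℝ) + 3) ^ 3 ≤ (2 * Real.log n) ^ 3 := by gcongr
    have e6 : ((Nat.log 2 n : ℝ) + 3) ^ 3 ≤ 8 * k := by nlinarith
    exact_mod_cast e6
  obtain ⟨k', m, b, r, g1, g2, g3, g4, g5, g6, g7, g8, g9, g10⟩ := params_width hk1 rfl hl h3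
  obtain ⟨a, ha, hB⟩ := exists_seed_log g1 g2 g3 g4 g5 g6
  have hm : 1 ≤ m := by omega
  have hb : 1 ≤ b := by
    rcases Nat.eq_zero_or_pos b with rfl | h0
    · omega
    · exact h0
  obtain ⟨e, c, hec⟩ := exists_embedding (m := m) (b := b) n.size (2 * r) a g8
  refine ⟨le_trans (Nat.le_self_pow (by norm_num) 2) hk1, m, b, (⟨0, hm⟩, ⟨0, hb⟩), e, c, g9, fun F hF => ?_⟩
  have key := Lang.lang_inp hm hb (by omega : 1 ≤ 2 * r) a ha g8
  simp only [hec, key]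
  refine (corr_le Lang.flips_parity g1 hk0 g7
    (fun z => sgn (hfun (2 * r) (m * (2 * r)) a (num z))) hB F hF).trans ?_
  rw [div_eq_inv_mul]
  refine mul_le_mul_of_nonneg_right ?_ (by positivity)
  have hkR : (0 : ℝ) < k := by exact_mod_cast hk0
  have e1 : Real.log k ≤ Nat.log 2 k := by
    have a1 : (k : ℝ) ≤ 2 ^ (Nat.log 2 k + 1) := by
      exact_mod_cast (Nat.lt_pow_succ_log_self (b := 2) (by norm_num) k).le
    have a2 := Real.log_le_log hkR a1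
    rw [Real.log_pow] at a2
    have a3 : (300 : ℝ) ≤ Nat.log 2 k := by
      exact_mod_cast Nat.le_log_of_pow_le (by norm_num) hk1
    push_cast at a2
    nlinarith
  have e2 : n * Real.log k / (15000000 * k) ≤ m / 40 := by
    rw [div_le_iff₀ (by positivity)]
    have a1 : (n : ℝ) * Nat.log 2 k ≤ 360000 * (k * m) := by exact_mod_cast g10
    have a2 : n * Real.log k ≤ n * Nat.log 2 k := by gcongr
    have a3 : (0 : ℝ) ≤ k * m := by positivity
    nlinarith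
  have e3 : (4000 : ℝ) ≤ m := by exact_mod_cast (show 4000 ≤ m by omega)
  rw [← Real.rpow_neg (by norm_num), show (8 : ℝ) = 2 ^ (3 : ℝ) by norm_num,
    ← Real.rpow_sub (by norm_num)]
  exact Real.rpow_le_rpow_of_exponent_le one_le_two (by linarith)

end Vale.Agent.N336T
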