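import Mathlib.Data.Finset.Basic
import Mathlib.Data.Fintype.Basic

/-!
Two layers of unbounded fan-in AND and OR gates, ready to be read by a top gate.
-/

namespace Vale.Agent.N336T

/-- The output of an AND gate (`isAnd = true`) or of an OR gate (`isAnd = false`) that reads the
wires in `S`, when wire `i` carries the bit `v i`. -/
def gate {ι : Type} (isAnd : Bool) (S : Finset ι) (v : ι → Bool) : Bool :=
  if isAnd then decide (∀ i ∈ S, v i = true) else decide (∃ i ∈ S, v i = true)

/-- The input wires at the point `x`: `inl (i, true)` carries `x i`, `inl (i, false)` carries the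
negation of `x i`, and `inr c` carries the constant `c`. -/
def wire {n : ℕ} (x : Fin n → Bool) : (Fin n × Bool) ⊕ Bool → Bool
  | Sum.inl l => decide (x l.1 = l.2)
  | Sum.inr c => c

/-- The bottom and middle layers of a depth-three circuit on `n` variables, with unbounded fan-in
and fan-out: `nb` bottom gates reading input wires and `nm` middle gates reading bottom gates;
each gate is an AND gate or an OR gate. -/
structure Layers (n : ℕ) where
  /-- number of bottom gates -/
  nb : ℕ
  /-- number of middle gates -/
  nm : ℕ
  /-- is the bottom gate an AND gate (otherwise it is an OR gate) -/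
  botAnd : Fin nb → Bool
  /-- the input wires read by a bottom gate -/
  bot : Fin nb → Finset ((Fin n × Bool) ⊕ Bool)
  /-- is the middle gate an AND gate (otherwise it is an OR gate) -/
  midAnd : Fin nm → Bool
  /-- the bottom gates read by a middle gate -/
  mid : Fin nm → Finset (Fin nb)

/-- The output of the middle gate `j` at the point `x`. -/
def Layers.out {n : ℕ} (C : Layers n) (x : Fin n → Bool) (j : Fin C.nm) : Bool :=
  gate (C.midAnd j) (C.mid j) fun i => gate (C.botAnd i) (C.bot i) (wire x)

end Vale.Agent.N336T
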