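import Vale.Agent.N336T.Defs
import Vale.Agent.N336.Lower

/-!
From a correlation bound against narrow CNFs on a subcube to bounds for circuits whose top gate is
a threshold gate or an arbitrary gate of small fan-in.
-/

namespace Vale.Agent.N336T

open Finset Vale.Agent.N336

theorem gate_true {ι : Type} (S : Finset ι) (v : ι → Bool) :
    gate true S v = true ↔ ∀ i ∈ S, v i = true := by simp [gate]

theorem gate_false {ι : Type} (S : Finset ι) (v : ι → Bool) :
    gate false S v = true ↔ ∃ i ∈ S, v i = true := by simp [gate]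

/-- A gate outputs its own type exactly when all its wires carry that bit. -/
theorem gate_eq_self {ι : Type} (t : Bool) (S : Finset ι) (v : ι → Bool) :
    gate t S v = t ↔ ∀ i ∈ S, v i = t := by
  cases t
  · simp [gate]
  · exact gate_true S v

theorem gate_eq_not {ι : Type} (t : Bool) (S : Finset ι) (v : ι → Bool) :
    gate t S v = (!t) ↔ ∃ i ∈ S, v i = !t := by
  have h := gate_eq_self t S v
  have e : ∀ u : Bool, u = (!t) ↔ ¬ u = t := by
    intro u
    cases u <;> cases t <;> simp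
  simp only [e, h]
  push Not
  rfl

section abstract

variable {X : Type*} [Fintype X]

theorem sgn_cases (c : Bool) : (c = true ∧ sgn c = -1) ∨ (c = false ∧ sgn c = 1) := by
  cases c <;> simp [sgn]

theorem abs_sgn (c : Bool) : |sgn c| = 1 := by
  cases c <;> simp [sgn]

/-- The discriminator lemma. -/
theorem discriminator [Nonempty X] (f : X → Bool) {η : ℝ} {J : Type*} [Fintype J]
    (o : J → X → Bool) (h0 : |∑ x, sgn (f x)| ≤ η * Fintype.card X)
    (h1 : ∀ j, |∑ x, sgn (f x) * ((o j x).toNat : ℝ)| ≤ 2 * (η * Fintype.card X))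
    (w : J → ℤ) (θ : ℤ) (hf : ∀ x, f x = true ↔ θ ≤ ∑ j, w j * ((o j x).toNat : ℤ)) :
    1 ≤ η * (6 * ∑ j, |(w j : ℝ)| + 1) := by
  have hN : (0 : ℝ) < Fintype.card X := by exact_mod_cast Fintype.card_pos
  set N : ℝ := (Fintype.card X : ℝ) with hNdef
  set W : ℝ := ∑ j, |(w j : ℝ)| with hW
  have hW0 : 0 ≤ W := sum_nonneg fun _ _ => abs_nonneg _
  have hη : 0 ≤ η := by
    by_contra hc
    have := mul_neg_of_neg_of_pos (not_le.1 hc) hN
    linarith [abs_nonneg (∑ x, sgn (f x))]
  have hP : ∀ x, |∑ j, (w j : ℝ) * ((o j x).toNat : ℝ)| ≤ W := fun x =>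
    (abs_sum_le_sum_abs _ _).trans (sum_le_sum fun j _ => by
      rw [abs_mul]
      cases o j x <;> simp)
  have hf' : ∀ x, (f x = true → (θ : ℝ) ≤ ∑ j, (w j : ℝ) * ((o j x).toNat : ℝ)) ∧
      (f x = false → ∑ j, (w j : ℝ) * ((o j x).toNat : ℝ) + 1 ≤ θ) := by
    intro x
    constructor
    · intro hx
      exact_mod_cast (hf x).1 hx
    · intro hx
      have : ¬ θ ≤ ∑ j, w j * ((o j x).toNat : ℤ) := fun h => by simp [(hf x).2 h] at hx
      have : ∑ j, w j * ((o j x).toNat : ℤ) + 1 ≤ θ := by omega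
      exact_mod_cast this
  by_cases hθ : |(θ : ℝ) - 1 / 2| ≤ W + 1 / 2
  · have a1 : ∀ x, 1 / 2 ≤ -(sgn (f x) * (∑ j, (w j : ℝ) * ((o j x).toNat : ℝ))) +
        sgn (f x) * ((θ : ℝ) - 1 / 2) := by
      intro x
      rcases sgn_cases (f x) with ⟨h, e⟩ | ⟨h, e⟩
      · rw [e]
        linarith [(hf' x).1 h]
      · rw [e]
        linarith [(hf' x).2 h]
    have a2 := sum_le_sum fun x (_ : x ∈ (univ : Finset X)) => a1 x
    rw [sum_const, card_univ, nsmul_eq_mul, sum_add_distrib, sum_neg_distrib, ← sum_mul] at a2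
    have a3 : ∑ x, sgn (f x) * (∑ j, (w j : ℝ) * ((o j x).toNat : ℝ)) =
        ∑ j, (w j : ℝ) * ∑ x, sgn (f x) * ((o j x).toNat : ℝ) := by
      simp only [mul_sum]
      rw [sum_comm]
      exact sum_congr rfl fun j _ => sum_congr rfl fun x _ => by ring
    have a4 : |∑ j, (w j : ℝ) * ∑ x, sgn (f x) * ((o j x).toNat : ℝ)| ≤ W * (2 * (η * N)) := by
      rw [hW, sum_mul]
      refine (abs_sum_le_sum_abs _ _).trans (sum_le_sum fun j _ => ?_)
      rw [abs_mul]
      exact mul_le_mul_of_nonneg_left (h1 j) (abs_nonneg _)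
    have a5 : |(∑ x, sgn (f x)) * ((θ : ℝ) - 1 / 2)| ≤ η * N * (W + 1 / 2) := by
      rw [abs_mul]
      exact mul_le_mul h0 hθ (abs_nonneg _) (by positivity)
    rw [a3] at a2
    have a6 := neg_abs_le (∑ j, (w j : ℝ) * ∑ x, sgn (f x) * ((o j x).toNat : ℝ))
    have a7 := le_abs_self ((∑ x, sgn (f x)) * ((θ : ℝ) - 1 / 2))
    have a8 : N * 1 ≤ N * (η * (6 * W + 1)) := by nlinarith
    exact le_of_mul_le_mul_left a8 hN
  · have a1 : N ≤ |∑ x, sgn (f x)| := by
      rcases lt_abs.1 (not_le.1 hθ) with h | h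
      · have : ∀ x, sgn (f x) = 1 := by
          intro x
          rcases sgn_cases (f x) with ⟨h2, -⟩ | ⟨-, e⟩
          · linarith [(hf' x).1 h2, le_abs_self (∑ j, (w j : ℝ) * ((o j x).toNat : ℝ)), hP x]
          · exact e
        simp [this, hNdef]
      · have : ∀ x, sgn (f x) = -1 := by
          intro x
          rcases sgn_cases (f x) with ⟨-, e⟩ | ⟨h2, -⟩
          · exact e
          · linarith [(hf' x).2 h2, neg_abs_le (∑ j, (w j : ℝ) * ((o j x).toNat : ℝ)), hP x]
        simp [this, hNdef]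
    have a2 : N * 1 ≤ N * η := by linarith
    have a3 := le_of_mul_le_mul_left a2 hN
    nlinarith

/-- An arbitrary function of `t` sets of a family closed under intersection. -/
theorem any_top {K : Type*} [DecidableEq K] (Q : K → X → Bool) (p : K → Bool)
    (χ : X → ℝ) {B : ℝ} (hB : ∀ S : Finset K, |∑ x with ∀ i ∈ S, Q i x = p i, χ x| ≤ B) (t : ℕ) :
    ∀ (S : Fin t → Finset K) (ψ : (Fin t → Bool) → ℝ), (∀ u, |ψ u| ≤ 1) → ∀ S₀ : Finset K,
      |∑ x with ∀ i ∈ S₀, Q i x = p i, χ x * ψ fun j => decide (∀ i ∈ S j, Q i x = p i)| ≤ 3 ^ t * B := by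
  induction t with
  | zero =>
    intro S ψ hψ S₀
    have e : ∀ x, (fun j : Fin 0 => decide (∀ i ∈ S j, Q i x = p i)) = default :=
      fun x => Subsingleton.elim _ _
    simp only [e]
    rw [← sum_mul, abs_mul, pow_zero, one_mul]
    have := mul_le_mul (hB S₀) (hψ default) (abs_nonneg _) ((abs_nonneg _).trans (hB S₀))
    linarith
  | succ t ih =>
    intro S ψ hψ S₀
    have h0 := ih (fun j => S j.succ) (fun u => ψ (Fin.cons false u)) (fun u => hψ _) S₀
    have h1 := ih (fun j => S j.succ) (fun u => ψ (Fin.cons false u)) (fun u => hψ _) (S₀ ∪ S 0)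
    have h2 := ih (fun j => S j.succ) (fun u => ψ (Fin.cons true u)) (fun u => hψ _) (S₀ ∪ S 0)
    have e : ∑ x with ∀ i ∈ S₀, Q i x = p i, χ x * ψ (fun j => decide (∀ i ∈ S j, Q i x = p i)) =
        ∑ x with ∀ i ∈ S₀, Q i x = p i, χ x * ψ (Fin.cons false fun j => decide (∀ i ∈ S j.succ, Q i x = p i))
        - ∑ x with ∀ i ∈ S₀ ∪ S 0, Q i x = p i,
            χ x * ψ (Fin.cons false fun j => decide (∀ i ∈ S j.succ, Q i x = p i))
        + ∑ x with ∀ i ∈ S₀ ∪ S 0, Q i x = p i,
            χ x * ψ (Fin.cons true fun j => decide (∀ i ∈ S j.succ, Q i x = p i)) := by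
      simp only [sum_filter]
      rw [← sum_sub_distrib, ← sum_add_distrib]
      refine sum_congr rfl fun x _ => ?_
      have e1 : (fun j => decide (∀ i ∈ S j, Q i x = p i)) =
          Fin.cons (decide (∀ i ∈ S 0, Q i x = p i)) fun j : Fin t => decide (∀ i ∈ S j.succ, Q i x = p i) := by
        funext j
        refine Fin.cases ?_ (fun j => ?_) j <;> simp
      rw [e1]
      by_cases g1 : ∀ i ∈ S₀, Q i x = p i
      · by_cases g2 : ∀ i ∈ S 0, Q i x = p i
        · have g3 : ∀ i ∈ S₀ ∪ S 0, Q i x = p i := fun i hi => (mem_union.1 hi).elim (g1 i) (g2 i)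
          rw [if_pos g1, if_pos g1, if_pos g3, if_pos g3, decide_eq_true g2]
          ring
        · have g3 : ¬ ∀ i ∈ S₀ ∪ S 0, Q i x = p i := fun h => g2 fun i hi => h i (mem_union_right _ hi)
          rw [if_pos g1, if_pos g1, if_neg g3, if_neg g3, decide_eq_false g2]
          ring
      · have g3 : ¬ ∀ i ∈ S₀ ∪ S 0, Q i x = p i := fun h => g1 fun i hi => h i (mem_union_left _ hi)
        rw [if_neg g1, if_neg g1, if_neg g3, if_neg g3]
        ring
    rw [e, pow_succ]
    refine (abs_add_le _ _).trans ?_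
    have := abs_sub (∑ x with ∀ i ∈ S₀, Q i x = p i,
      χ x * ψ (Fin.cons false fun j => decide (∀ i ∈ S j.succ, Q i x = p i)))
      (∑ x with ∀ i ∈ S₀ ∪ S 0, Q i x = p i,
        χ x * ψ (Fin.cons false fun j => decide (∀ i ∈ S j.succ, Q i x = p i)))
    linarith

end abstract

section clauses

variable {V : Type} [DecidableEq V] [Fintype V] {n : ℕ}

omit [DecidableEq V] [Fintype V] in
/-- On a subcube a wire carries a constant or a literal. -/
theorem wire_cases (e : V ↪ Fin n) (a : Fin n → Bool) (g : (Fin n × Bool) ⊕ Bool) (p : Bool) :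
    (∀ x, wire (Function.extend e x a) g = p) ∨ (∀ x, wire (Function.extend e x a) g ≠ p) ∨
      ∃ l : V × Bool, ∀ x, wire (Function.extend e x a) g = p ↔ x l.1 = l.2 := by
  have hc : ∀ c : Bool, (∀ x, wire (Function.extend e x a) g = c) →
      (∀ x, wire (Function.extend e x a) g = p) ∨ (∀ x, wire (Function.extend e x a) g ≠ p) ∨
      ∃ l : V × Bool, ∀ x, wire (Function.extend e x a) g = p ↔ x l.1 = l.2 := by
    intro c h
    by_cases hcp : c = p
    · exact Or.inl fun x => (h x).trans hcp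
    · exact Or.inr (Or.inl fun x => by rw [h x]; exact hcp)
  rcases g with ⟨i, b⟩ | c
  · by_cases hi : ∃ v, e v = i
    · obtain ⟨v, rfl⟩ := hi
      refine Or.inr (Or.inr ⟨(v, b == p), fun x => ?_⟩)
      simp only [wire, e.injective.extend_apply]
      cases x v <;> cases b <;> cases p <;> simp
    · refine hc (decide (a i = b)) fun x => ?_
      simp only [wire, Function.extend_apply' _ _ _ hi]
  · exact hc c fun _ => rfl

/-- A disjunction of wire conditions is a clause. -/
theorem exists_or_clause (v₀ : V) (e : V ↪ Fin n) (a : Fin n → Bool)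
    (G : Finset ((Fin n × Bool) ⊕ Bool)) (p : Bool) : ∃ D : Clause V, D.card ≤ max G.card 2 ∧
      ∀ x, (∃ g ∈ G, wire (Function.extend e x a) g = p) ↔ sat D x := by
  classical
  by_cases h : ∃ g ∈ G, ∀ x, wire (Function.extend e x a) g = p
  · obtain ⟨g, hg, h⟩ := h
    refine ⟨{(v₀, true), (v₀, false)}, card_le_two.trans (le_max_right _ _), fun x =>
      ⟨fun _ => ⟨(v₀, x v₀), ?_, rfl⟩, fun _ => ⟨g, hg, h x⟩⟩⟩
    cases x v₀ <;> simp
  · have key : ∀ g : (Fin n × Bool) ⊕ Bool, ∃ D : Clause V, D.card ≤ 1 ∧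
        (g ∈ G → ∀ x, wire (Function.extend e x a) g = p ↔ sat D x) := by
      intro g
      rcases wire_cases e a g p with h1 | h1 | ⟨l, h1⟩
      · exact ⟨∅, by simp, fun hg => absurd ⟨g, hg, h1⟩ h⟩
      · exact ⟨∅, by simp, fun _ x => by simp [sat, h1 x]⟩
      · exact ⟨{l}, by simp, fun _ x => by simp [sat, h1 x]⟩
    choose D h1 h2 using key
    refine ⟨G.biUnion D, le_trans ?_ (le_max_left _ _), fun x => ⟨?_, ?_⟩⟩
    · exact card_biUnion_le.trans ((sum_le_card_nsmul _ _ 1 fun g _ => h1 g).trans (by simp))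
    · rintro ⟨g, hg, h3⟩
      exact sat_mono (subset_biUnion_of_mem D hg) ((h2 g hg x).1 h3)
    · rintro ⟨l, hl, h3⟩
      obtain ⟨g, hg, hl⟩ := mem_biUnion.1 hl
      exact ⟨g, hg, (h2 g hg x).2 ⟨l, hl, h3⟩⟩

/-- The condition that a bottom gate outputs `p` is a narrow CNF up to a small error. -/
theorem exists_gate_cnf (v₀ : V) (e : V ↪ Fin n) (a : Fin n → Bool) {k : ℕ} (hk : 2 ≤ k)
    (t : Bool) (G : Finset ((Fin n × Bool) ⊕ Bool)) (p : Bool) :
    ∃ F : Finset (Clause V), (∀ D ∈ F, D.card ≤ k) ∧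
      (∀ x ∈ sols F, gate t G (wire (Function.extend e x a)) = p) ∧
      ((univ.filter fun x => gate t G (wire (Function.extend e x a)) = p ∧ x ∉ sols F).card : ℝ) ≤
        if G.card ≤ k then 0 else 2 ^ Fintype.card V / 2 ^ k := by
  classical
  by_cases hp : p = t
  · subst hp
    choose D h1 h2 using fun g => exists_or_clause v₀ e a {g} p
    have h3 : ∀ x, gate p G (wire (Function.extend e x a)) = p ↔ x ∈ sols (G.image D) := by
      intro x
      rw [gate_eq_self, mem_sols]
      constructor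
      · intro h E hE
        obtain ⟨g, hg, rfl⟩ := mem_image.1 hE
        exact (h2 g x).1 ⟨g, mem_singleton_self _, h g hg⟩
      · intro h g hg
        obtain ⟨g', hg', h4⟩ := (h2 g x).2 (h _ (mem_image_of_mem _ hg))
        rwa [mem_singleton.1 hg'] at h4
    refine ⟨G.image D, fun E hE => ?_, fun x hx => (h3 x).2 hx, ?_⟩
    · obtain ⟨g, -, rfl⟩ := mem_image.1 hE
      exact (h1 g).trans (by simpa using hk)
    · rw [filter_eq_empty_iff.2 fun x _ hx => hx.2 ((h3 x).1 hx.1)]
      split_ifs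
      · simp
      · rw [card_empty, Nat.cast_zero]
        positivity
  · obtain rfl : p = !t := by
      revert hp
      cases p <;> cases t <;> simp
    obtain ⟨D, h1, h2⟩ := exists_or_clause v₀ e a G (!t)
    have hs : ∀ (E : Clause V) x, x ∈ sols {E} ↔ sat E x := fun E x => by simp [mem_sols]
    by_cases hG : G.card ≤ k
    · refine ⟨{D}, fun E hE => ?_, fun x hx => (gate_eq_not _ _ _).2 ((h2 x).2 ((hs _ _).1 hx)), ?_⟩
      · rw [mem_singleton.1 hE]
        exact h1.trans (max_le hG hk)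
      · rw [filter_eq_empty_iff.2 fun x _ hx =>
          hx.2 ((hs _ _).2 ((h2 x).1 ((gate_eq_not _ _ _).1 hx.1))), if_pos hG]
        simp
    · obtain ⟨D', g1, g2, g3⟩ := exists_trunc k D
      refine ⟨{D'}, fun E hE => by rw [mem_singleton.1 hE]; exact g2,
        fun x hx => (gate_eq_not _ _ _).2 ((h2 x).2 (sat_mono g1 ((hs _ _).1 hx))), ?_⟩
      rw [if_neg hG, le_div_iff₀ (by positivity)]
      simp only [gate_eq_not, h2, hs]
      exact_mod_cast g3

/-- The correlation with a conjunction of conditions on bottom gates. -/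
theorem corr_gates (v₀ : V) (e : V ↪ Fin n) (a : Fin n → Bool) {k : ℕ} (hk : 2 ≤ k)
    (χ : (V → Bool) → ℝ) (hχ : ∀ x, |χ x| ≤ 1) {B : ℝ}
    (hB : ∀ F : Finset (Clause V), (∀ D ∈ F, D.card ≤ k) → |∑ x ∈ sols F, χ x| ≤ B)
    (C : Layers n) {err : ℝ}
    (herr : ∀ i, (if (C.bot i).card ≤ k then 0 else 2 ^ Fintype.card V / 2 ^ k : ℝ) ≤ err)
    (S : Finset (Fin C.nb × Bool)) :
    |∑ x with ∀ q ∈ S, gate (C.botAnd q.1) (C.bot q.1) (wire (Function.extend e x a)) = q.2, χ x|
      ≤ B + 2 * C.nb * err := by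
  classical
  choose F h1 h2 h3 using fun q : Fin C.nb × Bool =>
    exists_gate_cnf v₀ e a hk (C.botAnd q.1) (C.bot q.1) q.2
  set A := univ.filter fun x : V → Bool =>
    ∀ q ∈ S, gate (C.botAnd q.1) (C.bot q.1) (wire (Function.extend e x a)) = q.2 with hA
  have hsub : sols (S.biUnion F) ⊆ A := fun x hx => mem_filter.2 ⟨mem_univ _, fun q hq =>
    h2 q x (mem_sols.2 fun D hD => mem_sols.1 hx D (mem_biUnion.2 ⟨q, hq, hD⟩))⟩
  have hd : A \ sols (S.biUnion F) ⊆ univ.biUnion fun q : Fin C.nb × Bool => univ.filter fun x =>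
      gate (C.botAnd q.1) (C.bot q.1) (wire (Function.extend e x a)) = q.2 ∧ x ∉ sols (F q) := by
    intro x hx
    obtain ⟨g1, g2⟩ := mem_sdiff.1 hx
    rw [mem_sols] at g2
    push Not at g2
    obtain ⟨D, hD, g3⟩ := g2
    obtain ⟨q, hq, hD⟩ := mem_biUnion.1 hD
    exact mem_biUnion.2 ⟨q, mem_univ _, mem_filter.2 ⟨mem_univ _, (mem_filter.1 g1).2 q hq,
      fun h => g3 (mem_sols.1 h D hD)⟩⟩
  have hc : ((A \ sols (S.biUnion F)).card : ℝ) ≤ 2 * C.nb * err := by
    refine le_trans (Nat.cast_le.2 ((card_le_card hd).trans card_biUnion_le)) ?_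
    rw [Nat.cast_sum]
    refine (sum_le_card_nsmul _ _ err fun q _ => (h3 q).trans (herr q.1)).trans (le_of_eq ?_)
    simp only [card_univ, Fintype.card_prod, Fintype.card_fin, Fintype.card_bool, nsmul_eq_mul]
    push_cast
    ring
  rw [← sum_sdiff hsub]
  refine (abs_add_le _ _).trans ?_
  have b1 := hB (S.biUnion F) fun D hD => by
    obtain ⟨q, -, hD⟩ := mem_biUnion.1 hD
    exact h1 q D hD
  have b2 : |∑ x ∈ A \ sols (S.biUnion F), χ x| ≤ (A \ sols (S.biUnion F)).card :=
    (abs_sum_le_sum_abs _ _).trans ((sum_le_card_nsmul _ _ 1 fun x _ => hχ x).trans (by simp))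
  linarith

end clauses

/-- A middle gate outputs its own type exactly when a conjunction of conditions on bottom gates
holds. -/
theorem out_eq {n : ℕ} (C : Layers n) (y : Fin n → Bool) (j : Fin C.nm)
    [Decidable (∀ q ∈ (C.mid j).image fun i => (i, C.midAnd j),
      gate (C.botAnd q.1) (C.bot q.1) (wire y) = q.2)] :
    C.out y j = (C.midAnd j == decide (∀ q ∈ (C.mid j).image fun i => (i, C.midAnd j),
      gate (C.botAnd q.1) (C.bot q.1) (wire y) = q.2)) := by
  have h := gate_eq_self (C.midAnd j) (C.mid j) fun i => gate (C.botAnd i) (C.bot i) (wire y)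
  have e : (∀ q ∈ (C.mid j).image fun i => (i, C.midAnd j),
      gate (C.botAnd q.1) (C.bot q.1) (wire y) = q.2) ↔ C.out y j = C.midAnd j := by
    rw [Layers.out, h, forall_mem_image]
  have key : ∀ (u t : Bool) (P : Prop) [Decidable P], (P ↔ u = t) → u = (t == decide P) := by
    intro u t P _ hP
    by_cases h : P <;> cases u <;> cases t <;> simp_all
  exact key _ _ _ e

section top

variable {X : Type*} [Fintype X] {n : ℕ}

/-- Arbitrary top gate. -/
theorem corr_top (C : Layers n) (Z : X → Fin n → Bool) (χ : X → ℝ) {B : ℝ}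
    (hB : ∀ S : Finset (Fin C.nb × Bool),
      |∑ x with ∀ q ∈ S, gate (C.botAnd q.1) (C.bot q.1) (wire (Z x)) = q.2, χ x| ≤ B)
    (ψ : (Fin C.nm → Bool) → ℝ) (hψ : ∀ u, |ψ u| ≤ 1) :
    |∑ x, χ x * ψ (C.out (Z x))| ≤ 3 ^ C.nm * B := by
  have h := any_top (fun (q : Fin C.nb × Bool) x =>
    gate (C.botAnd q.1) (C.bot q.1) (wire (Z x))) Prod.snd χ (fun S => by convert hB S) C.nm
    (fun j => (C.mid j).image fun i => (i, C.midAnd j))
    (fun u => ψ fun j => C.midAnd j == u j) (fun u => hψ _) ∅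
  refine le_trans (le_of_eq (congrArg _ (sum_congr (by ext; simp) fun x _ => ?_))) h
  exact congrArg (fun u => χ x * ψ u) (funext fun j => @out_eq _ C (Z x) j (_))

theorem sum_toNat_le (χ : X → ℝ) (t : Bool) (P : X → Prop) [DecidablePred P] {B : ℝ}
    (h0 : |∑ x, χ x| ≤ B) (h1 : |∑ x with P x, χ x| ≤ B) :
    |∑ x, χ x * (((t == decide (P x)).toNat : ℕ) : ℝ)| ≤ 2 * B := by
  rw [sum_filter] at h1
  have hη := (abs_nonneg _).trans h0
  cases t
  · have e : ∀ x, χ x * (((false == decide (P x)).toNat : ℕ) : ℝ) =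
        χ x - if P x then χ x else 0 := by
      intro x
      by_cases h : P x <;> simp [h]
    rw [sum_congr rfl fun x _ => e x, sum_sub_distrib]
    exact (abs_sub _ _).trans (by linarith)
  · have e : ∀ x, χ x * (((true == decide (P x)).toNat : ℕ) : ℝ) = if P x then χ x else 0 := by
      intro x
      by_cases h : P x <;> simp [h]
    rw [sum_congr rfl fun x _ => e x]
    linarith

/-- Threshold top gate. -/
theorem thr_top [Nonempty X] (C : Layers n) (Z : X → Fin n → Bool) (f : X → Bool) {η : ℝ}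
    (hB : ∀ S : Finset (Fin C.nb × Bool),
      |∑ x with ∀ q ∈ S, gate (C.botAnd q.1) (C.bot q.1) (wire (Z x)) = q.2, sgn (f x)|
        ≤ η * Fintype.card X)
    (w : Fin C.nm → ℤ) (θ : ℤ)
    (hf : ∀ x, f x = true ↔ θ ≤ ∑ j, w j * ((C.out (Z x) j).toNat : ℤ)) :
    1 ≤ η * (6 * ∑ j, |(w j : ℝ)| + 1) := by
  have h0 : |∑ x, sgn (f x)| ≤ η * Fintype.card X := by
    have := hB ∅
    rwa [filter_true_of_mem (by simp)] at this
  refine discriminator f (fun j x => C.out (Z x) j) h0 (fun j => ?_) w θ hf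
  have h1 := sum_toNat_le (fun x => sgn (f x)) (C.midAnd j) _ h0
    (hB ((C.mid j).image fun i => (i, C.midAnd j)))
  refine le_trans (le_of_eq ?_) h1
  congr 1
  exact sum_congr rfl fun x _ => by rw [out_eq]

/-- An AND or OR top gate is a threshold gate whose weights add up to its fan-in. -/
theorem gate_thr {m : ℕ} (t : Bool) (T : Finset (Fin m)) : ∃ (w : Fin m → ℤ) (θ : ℤ),
    ∑ j, |(w j : ℝ)| = T.card ∧
      ∀ u : Fin m → Bool, gate t T u = true ↔ θ ≤ ∑ j, w j * ((u j).toNat : ℤ) := by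
  have key : ∀ u : Fin m → Bool, ∑ j, (if j ∈ T then (1 : ℤ) else 0) * ((u j).toNat : ℤ) =
      ((T.filter fun j => u j = true).card : ℤ) := by
    intro u
    rw [card_filter, Nat.cast_sum, ← sum_filter_add_sum_filter_not univ (· ∈ T),
      sum_eq_zero (s := univ.filter fun j => ¬ j ∈ T) fun j hj => by simp [(mem_filter.1 hj).2],
      add_zero, filter_mem_eq_inter, univ_inter]
    refine sum_congr rfl fun j hj => ?_
    cases u j <;> simp [hj]
  refine ⟨fun j => if j ∈ T then 1 else 0, if t then T.card else 1, ?_, fun u => ?_⟩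
  · rw [sum_congr rfl (g := fun j => if j ∈ T then (1 : ℝ) else 0) fun j _ => by
      by_cases h : j ∈ T <;> simp [h]]
    simp
  · rw [key]
    cases t
    · rw [gate_false]
      simp only [Bool.false_eq_true, if_false, Nat.one_le_cast, one_le_card]
      exact ⟨fun ⟨i, h1, h2⟩ => ⟨i, mem_filter.2 ⟨h1, h2⟩⟩,
        fun ⟨i, h⟩ => ⟨i, (mem_filter.1 h).1, (mem_filter.1 h).2⟩⟩
    · rw [gate_true]
      simp only [if_true, Nat.cast_le]
      constructor
      · intro h
        rw [filter_true_of_mem h]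
      · intro h i hi
        have := eq_of_subset_of_card_le (filter_subset (fun j => u j = true) T) h
        rw [← this] at hi
        exact (mem_filter.1 hi).2

end top

end Vale.Agent.N336T
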