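import Vale.Agent.N336T.Gates
import Vale.Agent.N336T.Corr

/-!
The lower bounds for threshold top gates, for bounded bottom fan-in and on average.
-/

namespace Vale.Agent.N336T

open Finset Filter Vale.Agent.N336

/-- Bottom fan-in `k`: the weight of a threshold top gate is at least `2 ^ Ω(n log k / k)`. -/
theorem width_bound {n k : ℕ} (hn : (2 : ℝ) ^ 100 ≤ Real.log n) (h1 : Real.log n ^ 3 ≤ k)
    (h3 : 2000000 * k ≤ n) (C : Layers n) (hC : ∀ i, (C.bot i).card ≤ k) (w : Fin C.nm → ℤ)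
    (θ : ℤ) (hf : ∀ x, lang (List.ofFn x) = true ↔ θ ≤ ∑ j, w j * ((C.out x j).toNat : ℤ)) :
    (2 : ℝ) ^ (n * Real.log k / (15000000 * k)) ≤ ∑ j, |(w j : ℝ)| := by
  obtain ⟨hk, m, b, v₀, e, a, -, hB⟩ := core hn h1 h3
  have h := thr_top C (fun x : Fin m × Fin b → Bool => Function.extend e x a)
    (fun x => lang (List.ofFn (Function.extend e x a)))
    (η := (2 : ℝ) ^ (-(n * Real.log k / (15000000 * k))) / 8) (fun S => by
      have := corr_gates v₀ e a hk (fun x => sgn (lang (List.ofFn (Function.extend e x a))))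
        (fun x => (abs_sgn _).le) hB C (err := 0) (fun i => by rw [if_pos (hC i)]) S
      rw [mul_zero, add_zero] at this
      convert this using 2
      simp) w θ fun x => hf _
  have hy : 0 ≤ n * Real.log k / (15000000 * k) := by
    have := Real.log_natCast_nonneg k
    positivity
  have hu := Real.one_le_rpow one_le_two hy
  rw [Real.rpow_neg (by norm_num), inv_eq_one_div, div_div, div_mul_eq_mul_div, one_mul,
    le_div_iff₀ (by positivity)] at h
  linarith

/-- Unbounded bottom fan-in: correlation with conjunctions of conditions on bottom gates. -/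
theorem sqrt_core {n : ℕ} (hn : (2 : ℝ) ^ 100 ≤ Real.log n) (h5 : Real.log n ^ 5 ≤ n) :
    ∃ (m b : ℕ) (e : Fin m × Fin b ↪ Fin n) (a : Fin n → Bool), n ≤ 2 * (m * b) ∧
      ∀ C : Layers n, (C.nb : ℝ) ≤ (2 : ℝ) ^ ((1 / 240000000 : ℝ) * √(n * Real.log n)) →
      ∀ S : Finset (Fin C.nb × Bool),
        |∑ x with ∀ q ∈ S, gate (C.botAnd q.1) (C.bot q.1) (wire (Function.extend e x a)) = q.2,
          sgn (lang (List.ofFn (Function.extend e x a)))| ≤
          2 / 15 / ((2 : ℝ) ^ ((1 / 240000000 : ℝ) * √(n * Real.log n))) ^ 3 *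
            Fintype.card (Fin m × Fin b → Bool) := by
  set y := Real.log n with hy
  have y1 : (10 : ℝ) ^ 14 ≤ y := le_trans (by norm_num) hn
  have y2 : (1 : ℝ) ≤ y := le_trans (by norm_num) y1
  have y3 : y * y ≤ n := by
    calc y * y = y ^ 2 := by ring
      _ ≤ y ^ 5 := pow_le_pow_right₀ y2 (by norm_num)
      _ ≤ n := h5
  have hn0 : (0 : ℝ) < n := by nlinarith
  set R := √(n * y) with hR
  have R1 : R ^ 2 = n * y := Real.sq_sqrt (by positivity)
  have R2 : y ^ 3 ≤ R := by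
    refine Real.le_sqrt_of_sq_le ?_
    calc (y ^ 3) ^ 2 = y ^ 5 * y := by ring
      _ ≤ n * y := by gcongr
  have R3 : y ≤ R := (le_self_pow₀ y2 (by norm_num)).trans R2
  have R4 : 4000000 * R ≤ n := by
    refine le_of_sq_le_sq ?_ hn0.le
    nlinarith
  obtain ⟨k, hk⟩ : ∃ k : ℕ, ⌈R⌉₊ = k := ⟨_, rfl⟩
  have k1 : R ≤ k := hk ▸ Nat.le_ceil R
  have k2 : (k : ℝ) ≤ 2 * R := by
    have := Nat.ceil_lt_add_one (a := R) (by linarith)
    rw [hk] at this
    linarith
  obtain ⟨hk2, m, b, v₀, e, a, hd, hB⟩ := core (n := n) (k := k) hn (R2.trans k1) (by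
    have : (2000000 : ℝ) * k ≤ n := by linarith
    exact_mod_cast this)
  refine ⟨m, b, e, a, hd, fun C hC S => ?_⟩
  have h := corr_gates v₀ e a hk2 (fun x => sgn (lang (List.ofFn (Function.extend e x a))))
    (fun x => (abs_sgn _).le) hB C (err := 2 ^ (m * b) / 2 ^ k) (fun i => by
      split_ifs
      · positivity
      · simp) S
  refine le_trans (le_of_eq (by convert rfl)) (h.trans ?_)
  have hN : ((Fintype.card (Fin m × Fin b → Bool) : ℕ) : ℝ) = 2 ^ (m * b) := by simp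
  rw [hN]
  set u := (2 : ℝ) ^ ((1 / 240000000 : ℝ) * R) with hu
  have u1 : 1 ≤ u := Real.one_le_rpow one_le_two (by linarith)
  have u4 : u ^ 4 = (2 : ℝ) ^ ((1 / 60000000 : ℝ) * R) := by
    rw [hu, ← Real.rpow_natCast, ← Real.rpow_mul (by norm_num)]
    congr 1
    push_cast
    ring
  have a1 : (2 : ℝ) ^ (-(n * Real.log k / (15000000 * k))) ≤ 1 / u ^ 3 := by
    have b1 : y ≤ 2 * Real.log k := by
      have c1 : (n : ℝ) ≤ (k : ℝ) ^ 2 := by nlinarith
      have c2 := Real.log_le_log hn0 c1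
      rw [Real.log_pow] at c2
      exact_mod_cast c2
    have b2 : (1 / 60000000 : ℝ) * R ≤ n * Real.log k / (15000000 * k) := by
      rw [le_div_iff₀ (by nlinarith)]
      have c1 : n * y ≤ n * (2 * Real.log k) := by gcongr
      have c2 : R * k ≤ R * (2 * R) := by gcongr
      nlinarith
    rw [Real.rpow_neg (by norm_num), inv_eq_one_div]
    refine one_div_le_one_div_of_le (by positivity) ?_
    refine (pow_le_pow_right₀ u1 (by norm_num : 3 ≤ 4)).trans ?_
    rw [u4]
    exact Real.rpow_le_rpow_of_exponent_le one_le_two b2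
  have a2 : 1024 * u ^ 4 ≤ 2 ^ k := by
    rw [u4, show (1024 : ℝ) = 2 ^ (10 : ℝ) by norm_num, ← Real.rpow_add (by norm_num),
      ← Real.rpow_natCast]
    exact Real.rpow_le_rpow_of_exponent_le one_le_two (by linarith)
  have hN0 : (0 : ℝ) < 2 ^ (m * b) := by positivity
  generalize (2 : ℝ) ^ (m * b) = N at hN0 ⊢
  have a3 : 2 * C.nb * (N / 2 ^ k) ≤ 2 * u * (N / (1024 * u ^ 4)) := by gcongr
  have a4 : 2 * u * (N / (1024 * u ^ 4)) = 1 / 512 * (1 / u ^ 3 * N) := by
    field_simp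
    ring
  have a5 : (2 : ℝ) ^ (-(n * Real.log k / (15000000 * k))) / 8 * N ≤ 1 / u ^ 3 / 8 * N := by gcongr
  have a6 : 0 ≤ 1 / u ^ 3 * N := by positivity
  have a7 : 2 / 15 / u ^ 3 * N = 2 / 15 * (1 / u ^ 3 * N) := by ring
  have a8 : 1 / u ^ 3 / 8 * N = 1 / 8 * (1 / u ^ 3 * N) := by ring
  linarith

/-- Threshold top gate, unbounded bottom fan-in. -/
theorem thr_bound {n : ℕ} (hn : (2 : ℝ) ^ 100 ≤ Real.log n) (h5 : Real.log n ^ 5 ≤ n)
    (C : Layers n) (w : Fin C.nm → ℤ) (θ : ℤ)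
    (hf : ∀ x, lang (List.ofFn x) = true ↔ θ ≤ ∑ j, w j * ((C.out x j).toNat : ℤ)) :
    (2 : ℝ) ^ ((1 / 240000000 : ℝ) * √(n * Real.log n)) ≤ C.nb + ∑ j, |(w j : ℝ)| := by
  obtain ⟨m, b, e, a, -, hB⟩ := sqrt_core hn h5
  by_contra hc
  rw [not_le] at hc
  have hW : 0 ≤ ∑ j, |(w j : ℝ)| := sum_nonneg fun _ _ => abs_nonneg _
  have hnb : (0 : ℝ) ≤ C.nb := Nat.cast_nonneg _
  have h := thr_top C (fun x : Fin m × Fin b → Bool => Function.extend e x a)
    (fun x => lang (List.ofFn (Function.extend e x a)))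
    (fun S => by convert hB C (by linarith) S) w θ fun x => hf _
  have u1 : 1 ≤ (2 : ℝ) ^ ((1 / 240000000 : ℝ) * √(n * Real.log n)) :=
    Real.one_le_rpow one_le_two (by positivity)
  generalize (2 : ℝ) ^ ((1 / 240000000 : ℝ) * √(n * Real.log n)) = u at *
  rw [div_mul_eq_mul_div, le_div_iff₀ (by positivity)] at h
  have := le_self_pow₀ u1 (by norm_num : 3 ≠ 0)
  linarith

theorem card_cube_filter {V : Type} [Fintype V] [DecidableEq V] {n : ℕ} (e : V ↪ Fin n)
    (a : Fin n → Bool) (P : (Fin n → Bool) → Prop) [DecidablePred P] :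
    (univ.filter fun x : Fin n → Bool => (∀ i ∉ univ.map e, x i = a i) ∧ P x).card =
      (univ.filter fun y : V → Bool => P (Function.extend e y a)).card := by
  have key : ∀ x : Fin n → Bool, (∀ i ∉ univ.map e, x i = a i) →
      Function.extend e (x ∘ e) a = x := by
    intro x hx
    funext i
    by_cases hi : ∃ v, e v = i
    · obtain ⟨v, rfl⟩ := hi
      rw [e.injective.extend_apply]
      rfl
    · rw [Function.extend_apply' _ _ _ hi, hx i (by simpa using hi)]
  refine card_nbij' (fun x => x ∘ e) (fun y => Function.extend e y a) ?_ ?_ ?_ ?_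
  · intro x hx
    obtain ⟨h1, h2⟩ := (mem_filter.1 (mem_coe.1 hx)).2
    exact mem_coe.2 (mem_filter.2 ⟨mem_univ _, by rwa [key x h1]⟩)
  · intro y hy
    refine mem_coe.2 (mem_filter.2 ⟨mem_univ _, fun i hi => ?_, (mem_filter.1 (mem_coe.1 hy)).2⟩)
    exact Function.extend_apply' _ _ _ (by simpa using hi)
  · intro x hx
    exact key x (mem_filter.1 (mem_coe.1 hx)).2.1
  · intro y _
    funext v
    exact e.injective.extend_apply _ _ _

/-- Arbitrary top gate of small fan-in, on average over a subcube. -/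
theorem avg_bound {n : ℕ} (hn : (2 : ℝ) ^ 100 ≤ Real.log n) (h5 : Real.log n ^ 5 ≤ n) :
    ∃ (S : Finset (Fin n)) (a : Fin n → Bool), n ≤ 2 * S.card ∧
      ∀ C : Layers n, (C.nb : ℝ) ≤ (2 : ℝ) ^ ((1 / 240000000 : ℝ) * √(n * Real.log n)) →
        (C.nm : ℝ) ≤ (1 / 240000000 : ℝ) * √(n * Real.log n) →
        ∀ φ : (Fin C.nm → Bool) → Bool,
          ((univ.filter fun x : Fin n → Bool =>
              (∀ i ∉ S, x i = a i) ∧ φ (C.out x) = lang (List.ofFn x)).card : ℝ) ≤
            (1 / 2 + (2 : ℝ) ^ (-((1 / 240000000 : ℝ) * √(n * Real.log n)))) * 2 ^ S.card := by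
  obtain ⟨m, b, e, a, hd, hB⟩ := sqrt_core hn h5
  have hS : (univ.map e).card = m * b := by simp
  refine ⟨univ.map e, a, by rwa [hS], fun C h1 h2 φ => ?_⟩
  have h := corr_top C (fun x : Fin m × Fin b → Bool => Function.extend e x a)
    (fun x => sgn (lang (List.ofFn (Function.extend e x a))))
    (fun S => by convert hB C h1 S) (fun u => sgn (φ u)) fun u => (abs_sgn _).le
  have hN : ((Fintype.card (Fin m × Fin b → Bool) : ℕ) : ℝ) = 2 ^ (m * b) := by simp
  have e1 : ∑ x : Fin m × Fin b → Bool, sgn (lang (List.ofFn (Function.extend e x a))) *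
      sgn (φ (C.out (Function.extend e x a))) = 2 * ((univ.filter fun y : Fin m × Fin b → Bool =>
        φ (C.out (Function.extend e y a)) = lang (List.ofFn (Function.extend e y a))).card : ℝ)
        - 2 ^ (m * b) := by
    have : ∀ s t : Bool, sgn s * sgn t = 2 * (if t = s then 1 else 0) - 1 := by
      intro s t
      cases s <;> cases t <;> norm_num [sgn]
    simp only [this]
    rw [sum_sub_distrib, ← mul_sum, sum_boole, sum_const, card_univ, nsmul_eq_mul, mul_one, hN]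
  rw [card_cube_filter e a fun x => φ (C.out x) = lang (List.ofFn x), hS,
    Real.rpow_neg (by norm_num)]
  rw [e1, hN] at h
  have a1 : (3 : ℝ) ^ C.nm ≤ ((2 : ℝ) ^ ((1 / 240000000 : ℝ) * √(n * Real.log n))) ^ 2 := by
    calc (3 : ℝ) ^ C.nm ≤ (2 ^ 2) ^ C.nm := pow_le_pow_left₀ (by norm_num) (by norm_num) _
      _ = ((2 : ℝ) ^ (C.nm : ℝ)) ^ 2 := by rw [Real.rpow_natCast, ← pow_mul, ← pow_mul, mul_comm]
      _ ≤ _ := pow_le_pow_left₀ (by positivity)
          (Real.rpow_le_rpow_of_exponent_le one_le_two h2) 2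
  have u1 : 1 ≤ (2 : ℝ) ^ ((1 / 240000000 : ℝ) * √(n * Real.log n)) :=
    Real.one_le_rpow one_le_two (by positivity)
  generalize (2 : ℝ) ^ ((1 / 240000000 : ℝ) * √(n * Real.log n)) = u at *
  have hN0 : (0 : ℝ) < 2 ^ (m * b) := by positivity
  generalize (2 : ℝ) ^ (m * b) = N at *
  have a2 : (3 : ℝ) ^ C.nm * (2 / 15 / u ^ 3 * N) ≤ u ^ 2 * (2 / 15 / u ^ 3 * N) := by gcongr
  have a3 : u ^ 2 * (2 / 15 / u ^ 3 * N) = 2 / 15 * (u⁻¹ * N) := by
    field_simp
  have a4 : 0 ≤ u⁻¹ * N := by positivity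
  have a5 := (le_abs_self _).trans h
  linarith

theorem eventually_large :
    ∀ᶠ n : ℕ in atTop, (2 : ℝ) ^ 100 ≤ Real.log n ∧ Real.log n ^ 5 ≤ n := by
  have h1 : Tendsto (fun n : ℕ => Real.log n) atTop atTop :=
    Real.tendsto_log_atTop.comp tendsto_natCast_atTop_atTop
  have h2 := tendsto_natCast_atTop_atTop (R := ℝ).eventually
    ((Real.isLittleO_pow_log_id_atTop (n := 5)).bound one_pos)
  filter_upwards [h1.eventually (eventually_ge_atTop ((2 : ℝ) ^ 100)), h2] with n a1 a2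
  refine ⟨a1, (le_abs_self _).trans ?_⟩
  simpa using a2

end Vale.Agent.N336T
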